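import Crest.Statements.S0170
import Crest.Agent.S0170Lib.Flow
import Crest.Agent.S0170Lib.Plan

set_option autoImplicit false
open scoped ContDiff
open Crest.AnalysisR.BoxFlow
open Crest Crest.AnalysisR Crest.Agent.S0170

namespace Crest.Agent.S0170

/-- Finitely many pairwise disjoint rational boxes in 3-space are carried onto disjoint target boxes, each a translated determinant-one positive diagonal rescaling of its source, by the time-one flow of a smooth, compactly supported, effective, divergence-free velocity field active only in [1/4,3/4]. The flow equals the prescribed affine map on a neighbourhood of each source box. Effective: computably approximable mixed derivatives at rational points and computable global derivative bounds. -/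
theorem result
    (n : ℕ) (a b h k : Fin n → Fin 3 → ℚ)
    (hh : ∀ i j, 0 < h i j) (hk : ∀ i j, 0 < k i j)
    (ha : Pairwise fun i i' => Disjoint (box (a i) (h i)) (box (a i') (h i')))
    (hb : Pairwise fun i i' => Disjoint (box (b i) (k i)) (box (b i') (k i')))
    (hvol : ∀ i, ∏ j : Fin 3, k i j / h i j = 1) :
    ∃ (U : Field) (Φ : ℝ → (Fin 3 → ℝ) → (Fin 3 → ℝ)),
      ContDiff ℝ ∞ U ∧ HasCompactSupport U ∧ Effective U ∧
      (∀ p : ℝ × (Fin 3 → ℝ), p.1 ∉ Set.Icc (1 / 4 : ℝ) (3 / 4) → U p = 0) ∧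
      (∀ p : ℝ × (Fin 3 → ℝ), spaceDiv U p = 0) ∧ IsFlow U Φ ∧
      ∀ i : Fin n, ∃ O : Set (Fin 3 → ℝ), IsOpen O ∧ box (a i) (h i) ⊆ O ∧
        ∀ x ∈ O, Φ 1 x = fun j => (b i j : ℝ) + ((k i j / h i j : ℚ) : ℝ) * (x j - (a i j : ℝ)) := by
  obtain ⟨Ms, ε, hε, hWF, hplan⟩ := plan_exists n a b h k hh hk ha hb hvol
  obtain ⟨U, Φ, hU1, hU2, hU3, hU4, hU5, hU6, hU7⟩ := flow_exists Ms hWF
  refine ⟨U, Φ, hU1, hU2, hU3, hU4, hU5, hU6, fun i => ?_⟩
  refine ⟨{x : Fin 3 → ℝ | ∀ j, |x j - (a i j : ℝ)| < (1 + (ε : ℝ)) * (h i j : ℝ)}, ?_, ?_, ?_⟩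
  · have : {x : Fin 3 → ℝ | ∀ j, |x j - (a i j : ℝ)| < (1 + (ε : ℝ)) * (h i j : ℝ)}
        = ⋂ j : Fin 3, {x : Fin 3 → ℝ | |x j - (a i j : ℝ)| < (1 + (ε : ℝ)) * (h i j : ℝ)} := by
      ext x; simp
    rw [this]
    refine isOpen_iInter_of_finite fun j => ?_
    exact isOpen_lt (by fun_prop) continuous_const
  · intro x hx j
    have h1 : |x j - (a i j : ℝ)| ≤ (h i j : ℝ) := hx j
    have h2 : (0 : ℝ) < (h i j : ℝ) := by exact_mod_cast hh i j
    have h3 : (0 : ℝ) < (ε : ℝ) := by exact_mod_cast hε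
    nlinarith
  · intro x hx
    obtain ⟨hv, hf⟩ := hplan i x hx
    rw [hU7 x hv, hf]

end Crest.Agent.S0170
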